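import Vale.Agent.P052.R2.H629.EightMain
import Mathlib.Topology.MetricSpace.Closeds
import Mathlib.Topology.Sets.VietorisTopology

/-!
# Dimension eight: sets near the Reuleaux body of an almost regular simplex (P052, helper857)

The exact case is `Vale.Agent.P052.H629.eight`; the passage to a neighbourhood is by compactness
of the space of nonempty compact sets.
-/

namespace Vale.Agent.P052.R2.H857

open Metric Filter Topology TopologicalSpace

/-- the normalised hypotheses -/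
def Cfg (ε : ℝ) (Y : Set (EuclideanSpace ℝ (Fin 8))) (v : Fin 9 → EuclideanSpace ℝ (Fin 8)) :
    Prop :=
  v 0 = 0 ∧ (∀ x ∈ Y, ∀ y ∈ Y, dist x y ≤ 1) ∧ (∀ c < 1, ∃ x ∈ Y, ∃ y ∈ Y, c < dist x y) ∧
    (∀ a b, a ≠ b → 1 - ε ≤ dist (v a) (v b)) ∧ (∀ a b, dist (v a) (v b) ≤ 1 + ε) ∧
    (∀ x ∈ Y, ∀ a, dist x (v a) ≤ 1 + ε)

/-- the normalised conclusion -/
def Good (Y : Set (EuclideanSpace ℝ (Fin 8))) : Prop :=
  ∃ Q : Fin 9 → Set (EuclideanSpace ℝ (Fin 8)), Y ⊆ ⋃ i, Q i ∧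
    ∃ c : ℝ, 0 ≤ c ∧ c < 1 ∧ ∀ i, ∀ x ∈ Q i, ∀ y ∈ Q i, dist x y ≤ c

/-- the limit step: a compact `K`, a regular simplex `w` and sets `Y n` converging to `K` -/
theorem good_of_limit (Y : ℕ → Set (EuclideanSpace ℝ (Fin 8)))
    (v : ℕ → Fin 9 → EuclideanSpace ℝ (Fin 8)) (e : ℕ → ℝ) (he : Tendsto e atTop (𝓝 0))
    (hY : ∀ n, Cfg (e n) (Y n) (v n)) (K : Set (EuclideanSpace ℝ (Fin 8)))
    (w : Fin 9 → EuclideanSpace ℝ (Fin 8)) (hKb : Bornology.IsBounded K)
    (hw : ∀ a, Tendsto (fun n => v n a) atTop (𝓝 (w a)))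
    (h1 : ∀ η > 0, ∀ᶠ n in atTop, ∀ x ∈ K, ∃ y ∈ Y n, dist x y < η)
    (h2 : ∀ η > 0, ∀ᶠ n in atTop, ∀ y ∈ Y n, ∃ x ∈ K, dist x y < η) :
    ∃ n, Good (Y n) := by
  have hK1 : ∀ x ∈ K, ∀ y ∈ K, dist x y ≤ 1 := by
    intro x hx y hy
    refine le_of_forall_pos_le_add fun η hη => ?_
    obtain ⟨n, hn⟩ := (h1 (η / 2) (by linarith)).exists
    obtain ⟨x', hx', hxx⟩ := hn x hx
    obtain ⟨y', hy', hyy⟩ := hn y hy
    have h3 := (hY n).2.1 x' hx' y' hy'
    have h4 := dist_triangle4 x x' y' y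
    rw [dist_comm y' y] at h4
    linarith
  have hdle : diam K ≤ 1 := diam_le_of_forall_dist_le zero_le_one hK1
  have hdge : 1 ≤ diam K := by
    refine le_of_forall_pos_le_add fun η hη => ?_
    obtain ⟨n, hn⟩ := (h2 (η / 3) (by linarith)).exists
    obtain ⟨x', hx', y', hy', hxy⟩ := (hY n).2.2.1 (1 - η / 3) (by linarith)
    obtain ⟨x, hx, hxx⟩ := hn x' hx'
    obtain ⟨y, hy, hyy⟩ := hn y' hy'
    have h3 := dist_le_diam_of_mem hKb hx hy
    have h4 := dist_triangle4 x' x y y'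
    rw [dist_comm x' x] at h4
    linarith
  have hd : diam K = 1 := le_antisymm hdle hdge
  have hww : ∀ a b, a ≠ b → dist (w a) (w b) = diam K := by
    intro a b hab
    rw [hd]
    have ht : Tendsto (fun n => dist (v n a) (v n b)) atTop (𝓝 (dist (w a) (w b))) :=
      (hw a).dist (hw b)
    have hl : Tendsto (fun n => 1 - e n) atTop (𝓝 1) := by
      simpa using (tendsto_const_nhds (x := (1 : ℝ))).sub he
    have hu : Tendsto (fun n => 1 + e n) atTop (𝓝 1) := by
      simpa using (tendsto_const_nhds (x := (1 : ℝ))).add he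
    exact le_antisymm
      (le_of_tendsto_of_tendsto' ht hu fun n => (hY n).2.2.2.2.1 a b)
      (le_of_tendsto_of_tendsto' hl ht fun n => (hY n).2.2.2.1 a b hab)
  have hxw : ∀ x ∈ K, ∀ a, dist x (w a) ≤ diam K := by
    intro x hx a
    rw [hd]
    refine le_of_forall_pos_le_add fun η hη => ?_
    have h3 : ∀ᶠ n in atTop, dist (v n a) (w a) < η / 3 :=
      (tendsto_iff_dist_tendsto_zero.1 (hw a)).eventually_lt_const (by linarith)
    have h4 : ∀ᶠ n in atTop, e n < η / 3 := he.eventually_lt_const (by linarith)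
    obtain ⟨n, hn, hn3, hn4⟩ := ((h1 (η / 3) (by linarith)).and (h3.and h4)).exists
    obtain ⟨x', hx', hxx⟩ := hn x hx
    have h5 := (hY n).2.2.2.2.2 x' hx' a
    have h6 := dist_triangle4 x x' (v n a) (w a)
    linarith
  obtain ⟨P, hPU, hPd⟩ := Vale.Agent.P052.H629.eight K hKb (by rw [hd]; exact one_pos) w hxw hww
  obtain ⟨i0, hi0⟩ := Finite.exists_max fun i : Fin 9 => diam (P i)
  have hc0 : 0 ≤ diam (P i0) := diam_nonneg
  have hc1 : diam (P i0) < 1 := by
    have := hPd i0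
    rwa [hd] at this
  set c := diam (P i0) with hc
  obtain ⟨n, hn⟩ := (h2 ((1 - c) / 4) (by linarith)).exists
  refine ⟨n, fun i => {y | ∃ p ∈ P i, dist p y < (1 - c) / 4}, ?_,
    c + (1 - c) / 2, by linarith, by linarith, ?_⟩
  · intro y hy
    obtain ⟨x, hx, hxy⟩ := hn y hy
    rw [← hPU] at hx
    obtain ⟨i, hi⟩ := Set.mem_iUnion.1 hx
    exact Set.mem_iUnion.2 ⟨i, x, hi, hxy⟩
  · rintro i x ⟨p, hp, hpx⟩ y ⟨q, hq, hqy⟩
    have hPb : Bornology.IsBounded (P i) := hKb.subset (by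
      rw [← hPU]
      exact Set.subset_iUnion P i)
    have h3 := dist_le_diam_of_mem hPb hp hq
    have h4 : diam (P i) ≤ c := hi0 i
    have h5 := dist_triangle4 x p q y
    rw [dist_comm x p] at h5
    linarith

/-- compactness: some `ε` works for the normalised statement -/
theorem cfg_good : ∃ ε : ℝ, 0 < ε ∧ ∀ Y v, Cfg ε Y v → Good Y := by
  by_contra hcon
  push Not at hcon
  have hex : ∀ n : ℕ, ∃ Y v, Cfg (1 / ((n : ℝ) + 1)) Y v ∧ ¬ Good Y := fun n =>
    hcon (1 / ((n : ℝ) + 1)) (by positivity)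
  choose Y v hY hG using hex
  have he1 : ∀ n : ℕ, (1 : ℝ) / ((n : ℝ) + 1) ≤ 1 := by
    intro n
    rw [div_le_one (by positivity)]
    linarith [(Nat.cast_nonneg n : (0 : ℝ) ≤ n)]
  have hYB : ∀ n, ∀ x ∈ Y n, x ∈ closedBall (0 : EuclideanSpace ℝ (Fin 8)) 2 := by
    intro n x hx
    have h := (hY n).2.2.2.2.2 x hx 0
    rw [(hY n).1] at h
    rw [mem_closedBall]
    linarith [he1 n]
  have hvB : ∀ n a, v n a ∈ closedBall (0 : EuclideanSpace ℝ (Fin 8)) 2 := by
    intro n a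
    have h := (hY n).2.2.2.2.1 a 0
    rw [(hY n).1] at h
    rw [mem_closedBall]
    linarith [he1 n]
  have : CompactSpace (closedBall (0 : EuclideanSpace ℝ (Fin 8)) 2) :=
    isCompact_iff_compactSpace.1 (isCompact_closedBall _ _)
  let S : ℕ → Set (closedBall (0 : EuclideanSpace ℝ (Fin 8)) 2) := fun n =>
    Subtype.val ⁻¹' (Y n)
  have hSne : ∀ n, (S n).Nonempty := by
    intro n
    obtain ⟨x, hx, -⟩ := (hY n).2.2.1 0 zero_lt_one
    exact ⟨⟨x, hYB n x hx⟩, hx⟩
  let C : ℕ → NonemptyCompacts (closedBall (0 : EuclideanSpace ℝ (Fin 8)) 2) := fun n =>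
    ⟨⟨closure (S n), isClosed_closure.isCompact⟩, (hSne n).closure⟩
  let W : ℕ → Fin 9 → closedBall (0 : EuclideanSpace ℝ (Fin 8)) 2 := fun n a =>
    ⟨v n a, hvB n a⟩
  obtain ⟨⟨K, w⟩, φ, hφ, hlim⟩ := CompactSpace.tendsto_subseq (fun n => (C n, W n))
  have hlimC : Tendsto (fun n => C (φ n)) atTop (𝓝 K) :=
    (continuous_fst.tendsto (K, w)).comp hlim
  have hlimW : Tendsto (fun n => W (φ n)) atTop (𝓝 w) :=
    (continuous_snd.tendsto (K, w)).comp hlim
  have hHd : ∀ η > 0, ∀ᶠ n in atTop, hausdorffDist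
      (closure (S (φ n))) (K : Set (closedBall (0 : EuclideanSpace ℝ (Fin 8)) 2)) < η := by
    intro η hη
    have h := (tendsto_iff_dist_tendsto_zero.1 hlimC).eventually_lt_const hη
    filter_upwards [h] with n hn
    rw [NonemptyCompacts.dist_eq] at hn
    exact hn
  have hfin : ∀ n, hausdorffEDist (closure (S (φ n)))
      (K : Set (closedBall (0 : EuclideanSpace ℝ (Fin 8)) 2)) ≠ ⊤ := fun n =>
    hausdorffEDist_ne_top_of_nonempty_of_bounded (hSne _).closure K.nonempty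
      isClosed_closure.isCompact.isBounded K.isCompact.isBounded
  obtain ⟨n, hn⟩ := good_of_limit (fun n => Y (φ n)) (fun n => v (φ n))
    (fun n => 1 / ((φ n : ℝ) + 1))
    (tendsto_one_div_add_atTop_nhds_zero_nat.comp hφ.tendsto_atTop)
    (fun n => hY (φ n)) (Subtype.val '' (K : Set (closedBall (0 : EuclideanSpace ℝ (Fin 8)) 2)))
    (fun a => (w a : EuclideanSpace ℝ (Fin 8)))
    ((isCompact_closedBall (0 : EuclideanSpace ℝ (Fin 8)) 2).isBounded.subset (by
      rintro _ ⟨x, -, rfl⟩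
      exact x.2))
    (fun a => (continuous_subtype_val.tendsto (w a)).comp ((tendsto_pi_nhds.1 hlimW) a))
    (by
      intro η hη
      filter_upwards [hHd (η / 2) (by linarith)] with n hn
      rintro _ ⟨x, hx, rfl⟩
      obtain ⟨z, hz, hxz⟩ := exists_dist_lt_of_hausdorffDist_lt' hx hn (hfin n)
      obtain ⟨y, hy, hzy⟩ := Metric.mem_closure_iff.1 hz (η / 2) (by linarith)
      refine ⟨y, hy, ?_⟩
      have h3 : dist (x : EuclideanSpace ℝ (Fin 8)) (y : EuclideanSpace ℝ (Fin 8)) = dist x y :=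
        rfl
      rw [h3]
      have h4 := dist_triangle x z y
      rw [dist_comm z x] at hxz
      linarith)
    (by
      intro η hη
      filter_upwards [hHd η hη] with n hn
      intro y hy
      have hy' : (⟨y, hYB _ y hy⟩ : closedBall (0 : EuclideanSpace ℝ (Fin 8)) 2) ∈
          closure (S (φ n)) := subset_closure hy
      obtain ⟨z, hz, hyz⟩ := exists_dist_lt_of_hausdorffDist_lt hy' hn (hfin n)
      refine ⟨z, ⟨z, hz, rfl⟩, ?_⟩
      rw [dist_comm] at hyz
      exact hyz)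
  exact hG _ hn

/-- **P052, dimension eight, almost regular simplices.** There is `ε > 0` such that every bounded
`X ⊆ ℝ⁸` of positive diameter, all of whose points are within `(1 + ε) diam X` of the nine
vertices of a simplex whose edges are all between `(1 - ε) diam X` and `(1 + ε) diam X`, is a
union of nine sets of smaller diameter. -/
theorem eight_near : ∃ ε : ℝ, 0 < ε ∧ ∀ X : Set (EuclideanSpace ℝ (Fin 8)),
    Bornology.IsBounded X → 0 < diam X → ∀ v : Fin 9 → EuclideanSpace ℝ (Fin 8),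
      (∀ a b, a ≠ b → (1 - ε) * diam X ≤ dist (v a) (v b)) →
      (∀ a b, dist (v a) (v b) ≤ (1 + ε) * diam X) →
      (∀ x ∈ X, ∀ a, dist x (v a) ≤ (1 + ε) * diam X) → IsSmallerCover X 9 := by
  obtain ⟨ε, hε, hG⟩ := cfg_good
  refine ⟨ε, hε, fun X hX hD v hd hu hx => ?_⟩
  have hsc : ∀ a b : EuclideanSpace ℝ (Fin 8),
      dist ((diam X)⁻¹ • (a - v 0)) ((diam X)⁻¹ • (b - v 0)) = (diam X)⁻¹ * dist a b := by
    intro a b
    rw [dist_smul₀, dist_sub_right, Real.norm_eq_abs, abs_of_pos (inv_pos.2 hD)]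
  have hle : ∀ (r : ℝ) (a b : EuclideanSpace ℝ (Fin 8)), dist a b ≤ r * diam X →
      (diam X)⁻¹ * dist a b ≤ r := by
    intro r a b hab
    rw [inv_mul_le_iff₀ hD, mul_comm]
    exact hab
  have hcfg : Cfg ε ((fun x => (diam X)⁻¹ • (x - v 0)) '' X)
      (fun a => (diam X)⁻¹ • (v a - v 0)) := by
    refine ⟨by simp, ?_, ?_, ?_, ?_, ?_⟩
    · rintro _ ⟨x, hx', rfl⟩ _ ⟨y, hy', rfl⟩
      rw [hsc]
      exact hle 1 _ _ (by
        rw [one_mul]
        exact dist_le_diam_of_mem hX hx' hy')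
    · intro c hc
      by_contra hcon
      push Not at hcon
      have h3 : diam X ≤ max c 0 * diam X := by
        apply diam_le_of_forall_dist_le (by positivity)
        intro x hx' y hy'
        have h4 := hcon _ ⟨x, hx', rfl⟩ _ ⟨y, hy', rfl⟩
        rw [hsc, inv_mul_le_iff₀ hD, mul_comm] at h4
        exact le_trans h4 (mul_le_mul_of_nonneg_right (le_max_left _ _) hD.le)
      have h5 : max c 0 < 1 := max_lt hc one_pos
      nlinarith
    · intro a b hab
      simp only [hsc]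
      rw [le_inv_mul_iff₀ hD, mul_comm]
      exact hd a b hab
    · intro a b
      simp only [hsc]
      exact hle _ _ _ (hu a b)
    · rintro _ ⟨x, hx', rfl⟩ a
      rw [hsc]
      exact hle _ _ _ (hx x hx' a)
  obtain ⟨Q, hQ, c, hc0, hc1, hQc⟩ := hG _ _ hcfg
  refine ⟨fun i => {x | x ∈ X ∧ (diam X)⁻¹ • (x - v 0) ∈ Q i}, ?_, fun i => ?_⟩
  · ext x
    simp only [Set.mem_iUnion, Set.mem_ofPred_eq]
    constructor
    · rintro ⟨i, hi, -⟩
      exact hi
    · intro hx'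
      obtain ⟨i, hi⟩ := Set.mem_iUnion.1 (hQ ⟨x, hx', rfl⟩)
      exact ⟨i, hx', hi⟩
  · refine lt_of_le_of_lt (diam_le_of_forall_dist_le (C := c * diam X) (by positivity) ?_) ?_
    · rintro x ⟨-, hx'⟩ y ⟨-, hy'⟩
      have h3 := hQc i _ hx' _ hy'
      rw [hsc, inv_mul_le_iff₀ hD, mul_comm] at h3
      exact h3
    · nlinarith

end Vale.Agent.P052.R2.H857
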